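import Mathlib
import Vale.Agent.P052.Config

namespace Vale.Agent.Results.P052.BorsukFails63

theorem result :
    ∀ d : ℕ, 63 ≤ d → ∃ Y : Set (EuclideanSpace ℝ (Fin d)),
      Bornology.IsBounded Y ∧ 0 < Metric.diam Y ∧
      ∀ P : Fin (d + 1) → Set (EuclideanSpace ℝ (Fin d)),
        Y = ⋃ i, P i → ∃ i, Metric.diam Y ≤ Metric.diam (P i) :=
  fun d hd => (Vale.Agent.P052.bad_of_le d hd).counterexample

end Vale.Agent.Results.P052.BorsukFails63
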